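import Mathlib

namespace Vale.Agent.Lib.P064

open SimpleGraph

/-- A finite acyclic graph with an edge has a leaf. -/
theorem exists_leaf_of_isAcyclic' {W : Type*} [Finite W] {F : SimpleGraph W} (hF : F.IsAcyclic)
    (hne : ∃ a b, F.Adj a b) : ∃ u w, F.Adj u w ∧ ∀ x, F.Adj u x → x = w := by
  classical
  obtain ⟨a, b, hab⟩ := hne
  have : Nonempty W := ⟨a⟩
  have ⟨u, v, p, hp, hmax⟩ := Walk.exists_isPath_forall_isPath_length_le_length F
  have hnil : ¬p.Nil := by
    have h1 := hmax a b (Walk.cons hab Walk.nil) (by simp [hab.ne])
    intro hn
    have h2 : p.length = 0 := Walk.length_eq_zero_iff.2 hn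
    simp at h1
    omega
  refine ⟨u, p.snd, p.adj_snd hnil, fun w hadj => ?_⟩
  apply hF.eq_snd_of_adj_start hp hadj
  have : ¬(p.cons hadj.symm).IsPath := by grind [Walk.length_cons]
  grind [hp.cons]

theorem exists_rooting_aux {V : Type*} [Finite V] (m : ℕ) :
    ∀ (H : SimpleGraph V), H.IsAcyclic → H.edgeSet.ncard = m →
    ∃ (par : V → Option V) (d : V → ℕ),
      (∀ u v, par u = some v → d u = d v + 1) ∧
      (∀ u v, H.Adj u v ↔ (par u = some v ∨ par v = some u)) := by
  classical
  induction m with
  | zero =>
    intro H _ hcard
    have hfin : H.edgeSet.Finite := Set.toFinite _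
    rw [Set.ncard_eq_zero hfin, edgeSet_eq_empty] at hcard
    subst hcard
    refine ⟨fun _ => none, fun _ => 0, ?_, ?_⟩
    · intro u v h
      simp at h
    · intro u v
      simp
  | succ m ih =>
    intro H hH hcard
    have hfin : H.edgeSet.Finite := Set.toFinite _
    have hne : H.edgeSet.Nonempty := by
      rw [← Set.ncard_pos hfin, hcard]
      exact Nat.succ_pos m
    obtain ⟨e, he⟩ := hne
    have hex : ∃ a b, H.Adj a b := by
      induction e using Sym2.ind with
      | _ a b => exact ⟨a, b, he⟩
    obtain ⟨u, w, huw, hleaf⟩ := exists_leaf_of_isAcyclic' hH hex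
    have hwu : w ≠ u := huw.ne'
    set H' := H.deleteEdges {s(u, w)} with hH'
    have hH'acyc : H'.IsAcyclic := hH.anti (deleteEdges_le _)
    have hH'card : H'.edgeSet.ncard = m := by
      rw [hH', edgeSet_deleteEdges, Set.ncard_sdiff_singleton_of_mem ((mem_edgeSet H).mpr huw), hcard]
      rfl
    obtain ⟨par', d', h1, h2⟩ := ih H' hH'acyc hH'card
    have hadj' : ∀ a b, H'.Adj a b ↔ H.Adj a b ∧ s(a, b) ≠ s(u, w) := by
      intro a b
      rw [hH', deleteEdges_adj]
      simp
    have hiso : ∀ x, ¬ H'.Adj u x := by
      intro x hx
      rw [hadj'] at hx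
      have := hleaf x hx.1
      exact hx.2 (by rw [this])
    have hparu : ∀ x, par' u ≠ some x := by
      intro x hx
      exact hiso x ((h2 u x).mpr (Or.inl hx))
    have hparx : ∀ x, par' x ≠ some u := by
      intro x hx
      exact hiso x ((h2 u x).mpr (Or.inr hx))
    refine ⟨Function.update par' u (some w), Function.update d' u (d' w + 1), ?_, ?_⟩
    · intro a b hab
      by_cases ha : a = u
      · subst ha
        rw [Function.update_self] at hab
        have hb : b = w := (Option.some.inj hab).symm
        subst hb
        rw [Function.update_self, Function.update_of_ne hwu]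
      · rw [Function.update_of_ne ha] at hab
        have hb : b ≠ u := by
          rintro rfl
          exact hparx a hab
        rw [Function.update_of_ne ha, Function.update_of_ne hb]
        exact h1 a b hab
    · intro a b
      by_cases ha : a = u
      · subst ha
        by_cases hb : b = a
        · subst hb
          simp [Function.update_self, hwu]
        · rw [Function.update_self, Function.update_of_ne hb]
          constructor
          · intro h
            left
            rw [hleaf b h]
          · rintro (h | h)
            · have : w = b := Option.some.inj h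
              rw [← this]; exact huw
            · exact absurd h (hparx b)
      · by_cases hb : b = u
        · subst hb
          rw [Function.update_self, Function.update_of_ne ha]
          constructor
          · intro h
            right
            rw [hleaf a h.symm]
          · rintro (h | h)
            · exact absurd h (hparx a)
            · have : w = a := Option.some.inj h
              rw [← this]; exact huw.symm
        · rw [Function.update_of_ne ha, Function.update_of_ne hb, ← h2 a b, hadj']
          constructor
          · intro h
            refine ⟨h, ?_⟩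
            intro hs
            rw [Sym2.eq_iff] at hs
            rcases hs with ⟨h3, _⟩ | ⟨_, h3⟩
            · exact ha h3
            · exact hb h3
          · intro h
            exact h.1

theorem exists_rooting {V : Type*} [Finite V] (H : SimpleGraph V) (hH : H.IsAcyclic) :
    ∃ (par : V → Option V) (d : V → ℕ),
      (∀ u v, par u = some v → d u = d v + 1) ∧
      (∀ u v, H.Adj u v ↔ (par u = some v ∨ par v = some u)) :=
  exists_rooting_aux _ H hH rfl

theorem ncard_edgeSet_fromRel_par {V : Type*} [Fintype V] [DecidableEq V] (p : V → Option V)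
    (d : V → ℕ) (hd : ∀ x y, p x = some y → d x = d y + 1) :
    (SimpleGraph.fromRel (fun x y => p x = some y)).edgeSet.ncard =
      (Finset.univ.filter (fun x => p x ≠ none)).card := by
  classical
  set f : V → Sym2 V := fun x => (p x).elim s(x, x) (fun y => s(x, y)) with hf
  have hne : ∀ x y, p x = some y → x ≠ y := by
    intro x y h hxy
    have := hd x y h
    rw [hxy] at this
    omega
  have hset : (SimpleGraph.fromRel (fun x y => p x = some y)).edgeSet =
      f '' ((Finset.univ.filter (fun x => p x ≠ none) : Finset V) : Set V) := by
    ext e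
    induction e using Sym2.ind with
    | _ a b =>
      rw [mem_edgeSet, fromRel_adj]
      simp only [Set.mem_image, Finset.coe_filter, Finset.mem_univ, true_and, Set.mem_ofPred_eq]
      constructor
      · rintro ⟨_, h | h⟩
        · exact ⟨a, by simp [h], by simp [hf, h]⟩
        · exact ⟨b, by simp [h], by simp [hf, h, Sym2.eq_swap]⟩
      · rintro ⟨x, hx, hfx⟩
        obtain ⟨y, hy⟩ := Option.ne_none_iff_exists'.mp hx
        simp only [hf, hy, Option.elim_some] at hfx
        rw [Sym2.eq_iff] at hfx
        rcases hfx with ⟨rfl, rfl⟩ | ⟨rfl, rfl⟩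
        · exact ⟨hne _ _ hy, Or.inl hy⟩
        · exact ⟨(hne _ _ hy).symm, Or.inr hy⟩
  have hinj : Set.InjOn f ((Finset.univ.filter (fun x => p x ≠ none) : Finset V) : Set V) := by
    intro x hx x' hx' hxx'
    simp only [Finset.coe_filter, Finset.mem_univ, true_and, Set.mem_ofPred_eq] at hx hx'
    obtain ⟨y, hy⟩ := Option.ne_none_iff_exists'.mp hx
    obtain ⟨y', hy'⟩ := Option.ne_none_iff_exists'.mp hx'
    simp only [hf, hy, hy', Option.elim_some] at hxx'
    rw [Sym2.eq_iff] at hxx'
    rcases hxx' with ⟨h, _⟩ | ⟨h1, h2⟩
    · exact h
    · exfalso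
      subst h1 h2
      have e1 := hd _ _ hy
      have e2 := hd _ _ hy'
      omega
  rw [hset, Set.InjOn.ncard_image hinj, Set.ncard_coe_finset]

end Vale.Agent.Lib.P064
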