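import Mathlib

set_option linter.unusedSectionVars false

namespace Vale.Agent.Lib.P064

open SimpleGraph Finset

section Gsec

variable {V : Type*} [DecidableEq V]

/-- the generating sum `G s = ∑_{A ⊆ s} |A|! a^|A| ∏_{u ∈ A} Wt u` -/
noncomputable def Gs (a : ℝ) (Wt : V → ℝ) (s : Finset V) : ℝ :=
  ∑ A ∈ s.powerset, (A.card.factorial : ℝ) * a ^ A.card * ∏ u ∈ A, Wt u

omit [DecidableEq V] in
theorem Gs_term_nonneg {a : ℝ} (ha : 0 ≤ a) {Wt : V → ℝ} (hW : ∀ v, 0 ≤ Wt v) (A : Finset V) :
    0 ≤ (A.card.factorial : ℝ) * a ^ A.card * ∏ u ∈ A, Wt u := by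
  have := Finset.prod_nonneg (fun u (_ : u ∈ A) => hW u)
  positivity

theorem one_le_Gs {a : ℝ} (ha : 0 ≤ a) {Wt : V → ℝ} (hW : ∀ v, 0 ≤ Wt v) (s : Finset V) :
    1 ≤ Gs a Wt s := by
  unfold Gs
  have h := Finset.single_le_sum
    (f := fun A : Finset V => (A.card.factorial : ℝ) * a ^ A.card * ∏ u ∈ A, Wt u)
    (fun A _ => Gs_term_nonneg ha hW A) (Finset.empty_mem_powerset s)
  simpa using h

theorem Gs_mono {a : ℝ} (ha : 0 ≤ a) {Wt : V → ℝ} (hW : ∀ v, 0 ≤ Wt v) {s t : Finset V}
    (h : s ⊆ t) : Gs a Wt s ≤ Gs a Wt t := by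
  unfold Gs
  exact Finset.sum_le_sum_of_subset_of_nonneg (Finset.powerset_mono.2 h)
    (fun A _ _ => Gs_term_nonneg ha hW A)

theorem Gs_step (a : ℝ) (Wt : V → ℝ) (s : Finset V) :
    ∑ z ∈ s, a * Wt z * Gs a Wt (s.erase z) ≤ Gs a Wt s := by
  set T : Finset V → ℝ := fun A => (A.card.factorial : ℝ) * a ^ A.card * ∏ u ∈ A, Wt u with hT
  have h1 : ∀ z ∈ s, a * Wt z * Gs a Wt (s.erase z) =
      ∑ B ∈ s.powerset.filter (fun B => z ∈ B), a * Wt z * T (B.erase z) := by
    intro z hz
    unfold Gs
    rw [Finset.mul_sum]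
    refine Finset.sum_nbij' (fun A => insert z A) (fun B => B.erase z) ?_ ?_ ?_ ?_ ?_
    · intro A hA
      rw [Finset.mem_powerset] at hA
      rw [Finset.mem_filter, Finset.mem_powerset]
      refine ⟨?_, Finset.mem_insert_self z A⟩
      intro x hx
      rcases Finset.mem_insert.1 hx with rfl | hx
      · exact hz
      · exact Finset.mem_of_mem_erase (hA hx)
    · intro B hB
      rw [Finset.mem_filter, Finset.mem_powerset] at hB
      rw [Finset.mem_powerset]
      exact Finset.erase_subset_erase z hB.1
    · intro A hA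
      rw [Finset.mem_powerset] at hA
      have hzA : z ∉ A := fun h => Finset.notMem_erase z s (hA h)
      exact Finset.erase_insert hzA
    · intro B hB
      rw [Finset.mem_filter] at hB
      exact Finset.insert_erase hB.2
    · intro A hA
      rw [Finset.mem_powerset] at hA
      have hzA : z ∉ A := fun h => Finset.notMem_erase z s (hA h)
      rw [Finset.erase_insert hzA]
  rw [Finset.sum_congr rfl h1]
  have h2 : ∑ z ∈ s, ∑ B ∈ s.powerset.filter (fun B => z ∈ B), a * Wt z * T (B.erase z) =
      ∑ B ∈ s.powerset, ∑ z ∈ B, a * Wt z * T (B.erase z) := by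
    apply Finset.sum_comm'
    intro z B
    rw [Finset.mem_filter, Finset.mem_powerset]
    constructor
    · rintro ⟨_, hB, hzB⟩
      exact ⟨hzB, hB⟩
    · rintro ⟨hzB, hB⟩
      exact ⟨hB hzB, hB, hzB⟩
  rw [h2]
  unfold Gs
  apply Finset.sum_le_sum
  intro B _
  rcases Finset.eq_empty_or_nonempty B with rfl | hne
  · simp
  · have hpos : 0 < B.card := Finset.card_pos.2 hne
    have h3 : ∀ z ∈ B, a * Wt z * T (B.erase z) =
        ((B.card - 1).factorial : ℝ) * a ^ B.card * ∏ u ∈ B, Wt u := by
      intro z hz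
      simp only [hT]
      rw [Finset.card_erase_of_mem hz, ← Finset.mul_prod_erase B Wt hz]
      have hpow : a ^ B.card = a * a ^ (B.card - 1) := by
        rw [← pow_succ', Nat.sub_add_cancel hpos]
      rw [hpow]
      ring
    rw [Finset.sum_congr rfl h3, Finset.sum_const, nsmul_eq_mul]
    have hfac : (B.card.factorial : ℝ) = (B.card : ℝ) * ((B.card - 1).factorial : ℝ) := by
      rw [← Nat.cast_mul, Nat.mul_factorial_pred hpos.ne']
    rw [hfac]
    apply le_of_eq
    ring

end Gsec

section Main

variable {V : Type*} [Fintype V] [DecidableEq V]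

/-- the children of `v` -/
def ch (par : V → Option V) (v : V) : Finset V := univ.filter (fun u => par u = some v)

/-- `x` has the parent of its image among the images of its neighbours -/
def up (par : V → Option V) {W : Type} {F : SimpleGraph W} {H : SimpleGraph V}
    (φ : Copy F H) (x : W) : Prop :=
  ∃ y, F.Adj x y ∧ par (φ x) = some (φ y)

open Classical in
/-- the children of the image of `x` that are not images of neighbours of `x` -/
noncomputable def avail (par : V → Option V) {W : Type} {F : SimpleGraph W} {H : SimpleGraph V}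
    (φ : Copy F H) (x : W) : Finset V :=
  (ch par (φ x)).filter (fun z => ∀ y, F.Adj x y → φ y ≠ z)

/-- the potential of a copy -/
noncomputable def Psi (par : V → Option V) (a : ℝ) (Wt : V → ℝ) {W : Type} [Fintype W]
    {F : SimpleGraph W} {H : SimpleGraph V} (φ : Copy F H) : ℝ :=
  ∏ x, Gs a Wt (avail par φ x)

/-- a `Fintype` structure on the copies -/
@[instance_reducible]
noncomputable def copyFintype {W : Type} [Finite W] (F : SimpleGraph W) (H : SimpleGraph V) :
    Fintype (Copy F H) :=
  haveI : Finite (Copy F H) :=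
    Finite.of_injective (fun f : Copy F H => (f : W → V)) DFunLike.coe_injective
  Fintype.ofFinite _

/-- the finset of all copies -/
noncomputable def copies {W : Type} [Finite W] (F : SimpleGraph W) (H : SimpleGraph V) :
    Finset (Copy F H) := @Finset.univ _ (copyFintype F H)

theorem mem_copies {W : Type} [Finite W] {F : SimpleGraph W} {H : SimpleGraph V}
    (φ : Copy F H) : φ ∈ copies F H := @Finset.mem_univ _ (copyFintype F H) φ

theorem card_copies {W : Type} [Finite W] (F : SimpleGraph W) (H : SimpleGraph V) :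
    (copies F H).card = Nat.card (Copy F H) := by
  rw [copies, @Finset.card_univ _ (copyFintype F H), @Nat.card_eq_fintype_card _ (copyFintype F H)]

open Classical in
/-- the copies whose set of non-up vertices is `R` -/
noncomputable def cls (par : V → Option V) {W : Type} [Finite W] (F : SimpleGraph W)
    (H : SimpleGraph V) (R : Set W) : Finset (Copy F H) :=
  (copies F H).filter (fun φ => ∀ x, x ∈ R ↔ ¬ up par φ x)

theorem mem_cls {par : V → Option V} {W : Type} [Finite W] {F : SimpleGraph W}
    {H : SimpleGraph V} {R : Set W} {φ : Copy F H} :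
    φ ∈ cls par F H R ↔ ∀ x, x ∈ R ↔ ¬ up par φ x := by
  classical
  simp [cls, mem_copies]

/-- restriction of a copy to the complement of a vertex -/
def res {W : Type} {F : SimpleGraph W} {H : SimpleGraph V} (w : W) (φ : Copy F H) :
    Copy (F.induce ({w}ᶜ : Set W)) H :=
  φ.comp (Copy.induce F ({w}ᶜ : Set W))

omit [Fintype V] [DecidableEq V] in
theorem res_apply {W : Type} {F : SimpleGraph W} {H : SimpleGraph V} (w : W) (φ : Copy F H)
    (x : ({w}ᶜ : Set W)) : res w φ x = φ x.1 := by
  simp [res, Copy.induce]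

omit [Fintype V] [DecidableEq V] in
theorem res_inj {W : Type} {F : SimpleGraph W} {H : SimpleGraph V} (w : W) (φ ψ : Copy F H)
    (h1 : res w φ = res w ψ) (h2 : φ w = ψ w) : φ = ψ := by
  apply DFunLike.ext
  intro x
  by_cases hx : x = w
  · subst hx; exact h2
  · have h := congrArg (fun χ : Copy (F.induce ({w}ᶜ : Set W)) H => χ ⟨x, hx⟩) h1
    simpa [res_apply] using h

omit [Fintype V] [DecidableEq V] in
theorem up_res {par : V → Option V} {W : Type} {F : SimpleGraph W} {H : SimpleGraph V} (w : W)
    (φ : Copy F H)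
    (hyp : ∀ x y, x ≠ w → F.Adj x y → par (φ x) = some (φ y) → y ≠ w)
    (x : ({w}ᶜ : Set W)) : up par (res w φ) x ↔ up par φ x.1 := by
  constructor
  · rintro ⟨y, hadj, hpar⟩
    rw [res_apply, res_apply] at hpar
    exact ⟨y.1, hadj, hpar⟩
  · rintro ⟨y, hadj, hpar⟩
    have hy : y ≠ w := hyp x.1 y x.2 hadj hpar
    refine ⟨⟨y, hy⟩, hadj, ?_⟩
    rw [res_apply, res_apply]
    exact hpar

theorem avail_res {par : V → Option V} {W : Type} {F : SimpleGraph W} {H : SimpleGraph V}
    (w : W) (φ : Copy F H) (x : ({w}ᶜ : Set W)) (hx : ¬ F.Adj x.1 w) :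
    avail par (res w φ) x = avail par φ x.1 := by
  classical
  ext z
  simp only [avail, Finset.mem_filter, res_apply]
  constructor
  · rintro ⟨hz, h⟩
    refine ⟨hz, fun y hy => ?_⟩
    have hyw : y ≠ w := by
      rintro rfl
      exact hx hy
    exact h ⟨y, hyw⟩ hy
  · rintro ⟨hz, h⟩
    refine ⟨hz, fun y hy => ?_⟩
    exact h y.1 hy

theorem avail_leaf {par : V → Option V} {W : Type} {F : SimpleGraph W} {H : SimpleGraph V}
    (w u : W) (hwu : F.Adj w u) (φ : Copy F H) :
    avail par φ u = (avail par (res w φ) ⟨u, hwu.ne'⟩).erase (φ w) := by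
  classical
  ext z
  simp only [avail, Finset.mem_filter, Finset.mem_erase, res_apply]
  constructor
  · rintro ⟨hz, h⟩
    refine ⟨fun hzw => h w hwu.symm hzw.symm, hz, fun y hy => ?_⟩
    exact h y.1 hy
  · rintro ⟨hzw, hz, h⟩
    refine ⟨hz, fun y hy => ?_⟩
    by_cases hyw : y = w
    · subst hyw
      exact fun h' => hzw h'.symm
    · exact h ⟨y, hyw⟩ hy

theorem mem_avail_leaf {par : V → Option V} {W : Type} {F : SimpleGraph W} {H : SimpleGraph V}
    (w u : W) (hwu : F.Adj w u) (φ : Copy F H) (hpar : par (φ w) = some (φ u)) :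
    φ w ∈ avail par (res w φ) ⟨u, hwu.ne'⟩ := by
  classical
  simp only [avail, Finset.mem_filter, res_apply, ch, Finset.mem_univ, true_and]
  refine ⟨hpar, fun y _ => ?_⟩
  intro h
  exact y.2 (φ.injective h)

theorem avail_subset {par : V → Option V} {W : Type} {F : SimpleGraph W} {H : SimpleGraph V}
    (φ : Copy F H) (x : W) : avail par φ x ⊆ ch par (φ x) := by
  classical
  exact Finset.filter_subset _ _

theorem avail_isolated {par : V → Option V} {W : Type} {F : SimpleGraph W} {H : SimpleGraph V}
    (φ : Copy F H) (w : W) (hw : ∀ x, ¬ F.Adj w x) : avail par φ w = ch par (φ w) := by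
  classical
  apply Finset.filter_true_of_mem
  intro z _ y hy
  exact absurd hy (hw y)

omit [Fintype V] [DecidableEq V] in
/-- A finite acyclic graph with an edge has a leaf. -/
theorem exists_leaf_of_isAcyclic'' {W : Type*} [Finite W] {F : SimpleGraph W} (hF : F.IsAcyclic)
    (hne : ∃ a b, F.Adj a b) : ∃ u w, F.Adj u w ∧ ∀ x, F.Adj u x → x = w := by
  classical
  obtain ⟨a, b, hab⟩ := hne
  have : Nonempty W := ⟨a⟩
  have ⟨u, v, p, hp, hmax⟩ := Walk.exists_isPath_forall_isPath_length_le_length F
  have hnil : ¬p.Nil := by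
    have h1 := hmax a b (Walk.cons hab Walk.nil) (by simp [hab.ne])
    intro hn
    have h2 : p.length = 0 := Walk.length_eq_zero_iff.2 hn
    simp at h1
    omega
  refine ⟨u, p.snd, p.adj_snd hnil, fun w hadj => ?_⟩
  apply hF.eq_snd_of_adj_start hp hadj
  have : ¬(p.cons hadj.symm).IsPath := by grind [Walk.length_cons]
  grind [hp.cons]

omit [Fintype V] [DecidableEq V] in
/-- Edge count after removing one vertex. -/
theorem ncard_edgeSet_induce_compl_singleton' {W : Type*} [Fintype W] [DecidableEq W]
    (F : SimpleGraph W) [DecidableRel F.Adj] (v : W) :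
    (F.induce ({v}ᶜ : Set W)).edgeSet.ncard = F.edgeSet.ncard - F.degree v := by
  have h1 := card_edgeFinset_induce_compl_singleton F v
  have h2 := card_edgeFinset_deleteIncidenceSet F v
  rw [h2] at h1
  rw [Set.ncard_eq_toFinset_card', Set.ncard_eq_toFinset_card']
  simpa [edgeFinset] using h1

omit [Fintype V] [DecidableEq V] in
theorem sum_le_sum_inj {α β γ : Type*} [DecidableEq β] [DecidableEq γ] (s : Finset α)
    (s' : Finset β) (t : β → Finset γ) (ι : α → β × γ) (hinj : Set.InjOn ι s)
    (hmem : ∀ x ∈ s, (ι x).1 ∈ s' ∧ (ι x).2 ∈ t (ι x).1)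
    (f : α → ℝ) (g : β → γ → ℝ) (hg : ∀ b ∈ s', ∀ c ∈ t b, 0 ≤ g b c)
    (hfg : ∀ x ∈ s, f x ≤ g (ι x).1 (ι x).2) :
    ∑ x ∈ s, f x ≤ ∑ b ∈ s', ∑ c ∈ t b, g b c := by
  rw [← Finset.sum_fiberwise_of_maps_to (g := fun x => (ι x).1) (fun x hx => (hmem x hx).1)]
  apply Finset.sum_le_sum
  intro b hb
  calc ∑ x ∈ s.filter (fun x => (ι x).1 = b), f x
      ≤ ∑ x ∈ s.filter (fun x => (ι x).1 = b), g b (ι x).2 := by
        apply Finset.sum_le_sum
        intro x hx
        rw [Finset.mem_filter] at hx
        have h := hfg x hx.1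
        rwa [hx.2] at h
    _ = ∑ c ∈ (s.filter (fun x => (ι x).1 = b)).image (fun x => (ι x).2), g b c := by
        rw [Finset.sum_image]
        intro x hx y hy hxy
        have hx' := Finset.mem_filter.1 (Finset.mem_coe.1 hx)
        have hy' := Finset.mem_filter.1 (Finset.mem_coe.1 hy)
        exact hinj hx'.1 hy'.1 (Prod.ext (hx'.2.trans hy'.2.symm) hxy)
    _ ≤ ∑ c ∈ t b, g b c := by
        apply Finset.sum_le_sum_of_subset_of_nonneg
        · intro c hc
          rw [Finset.mem_image] at hc
          obtain ⟨x, hx, rfl⟩ := hc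
          rw [Finset.mem_filter] at hx
          have h := (hmem x hx.1).2
          rwa [hx.2] at h
        · intro c hc _
          exact hg b hb c hc

theorem Psi_split (par : V → Option V) (a : ℝ) (Wt : V → ℝ) {W : Type} [Fintype W]
    {F : SimpleGraph W} {H : SimpleGraph V} (w : W) [Fintype ({w}ᶜ : Set W)] (φ : Copy F H) :
    Psi par a Wt φ =
      Gs a Wt (avail par φ w) * ∏ x : ({w}ᶜ : Set W), Gs a Wt (avail par φ x.1) := by
  classical
  unfold Psi
  rw [Fintype.prod_eq_mul_prod_compl w]
  congr 1
  refine Finset.prod_subtype _ (fun x => ?_) _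
  simp

theorem Psi_nonneg {par : V → Option V} {a : ℝ} (ha : 0 ≤ a) {Wt : V → ℝ}
    (hW0 : ∀ v, 0 ≤ Wt v) {W : Type} [Fintype W]
    {F : SimpleGraph W} {H : SimpleGraph V} (φ : Copy F H) : 0 ≤ Psi par a Wt φ :=
  Finset.prod_nonneg (fun _ _ => le_trans zero_le_one (one_le_Gs ha hW0 _))

theorem class_sum_le (H : SimpleGraph V) (par : V → Option V) (d : V → ℕ)
    (hd : ∀ u v, par u = some v → d u = d v + 1)
    (hH : ∀ u v, H.Adj u v ↔ (par u = some v ∨ par v = some u))
    (a : ℝ) (ha : 0 < a) (Wt : V → ℝ) (hW0 : ∀ v, 0 ≤ Wt v)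
    (hsup : ∀ v, Gs a Wt (ch par v) ≤ Wt v) :
    ∀ (m : ℕ) (W : Type) [Fintype W] (F : SimpleGraph W), Fintype.card W = m → F.IsAcyclic →
      F.edgeSet.ncard ≤ m ∧ ∀ R : Set W,
        ∑ φ ∈ cls par F H R, Psi par a Wt φ ≤
          (1 / a) ^ F.edgeSet.ncard * (∑ v, Wt v) ^ (m - F.edgeSet.ncard) := by
  intro m
  induction m with
  | zero =>
    intro W _ F hW hF
    have hemp : IsEmpty W := Fintype.card_eq_zero_iff.1 hW
    have he : F.edgeSet = ∅ := by
      ext e
      induction e using Sym2.ind with
      | _ a b => exact isEmptyElim a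
    refine ⟨by rw [he]; simp, fun R => ?_⟩
    rw [he]
    have hrhs : (1 / a) ^ (∅ : Set (Sym2 W)).ncard * (∑ v, Wt v) ^ (0 - (∅ : Set (Sym2 W)).ncard)
        = 1 := by simp
    rw [hrhs]
    have hsub : Subsingleton (Copy F H) :=
      ⟨fun a b => DFunLike.ext _ _ (fun w => isEmptyElim w)⟩
    have hPsi : ∀ φ : Copy F H, Psi par a Wt φ = 1 := by
      intro φ
      unfold Psi
      exact Finset.prod_of_isEmpty _
    rw [Finset.sum_congr rfl (fun φ _ => hPsi φ), Finset.sum_const, nsmul_eq_mul, mul_one]
    have hc : (cls par F H R).card ≤ 1 := Finset.card_le_one_of_subsingleton _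
    exact_mod_cast hc
  | succ m ih =>
    intro W _ F hW hF
    classical
    have hB : 0 ≤ ∑ v, Wt v := Finset.sum_nonneg (fun v _ => hW0 v)
    by_cases hiso : ∃ v, ∀ x, ¬F.Adj v x
    · obtain ⟨w, hw⟩ := hiso
      have hcard : Fintype.card (({w}ᶜ : Set W)) = m := by
        rw [Fintype.card_compl_set]
        simp [hW]
      obtain ⟨he', hS'⟩ := ih _ (F.induce ({w}ᶜ : Set W)) hcard (hF.induce _)
      have hdeg : F.degree w = 0 := by
        rw [← card_neighborFinset_eq_degree, Finset.card_eq_zero]
        ext x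
        simp [hw x]
      have he := ncard_edgeSet_induce_compl_singleton' F w
      rw [hdeg, Nat.sub_zero] at he
      rw [he] at he' hS'
      refine ⟨by omega, fun R => ?_⟩
      have hstep := sum_le_sum_inj (cls par F H R)
        (cls par (F.induce ({w}ᶜ : Set W)) H {x | x.1 ∈ R})
        (fun _ => (univ : Finset V)) (fun φ => (res w φ, φ w)) ?_ ?_
        (fun φ => Psi par a Wt φ) (fun φ' z => Psi par a Wt φ' * Wt z) ?_ ?_
      · calc ∑ φ ∈ cls par F H R, Psi par a Wt φ
            ≤ ∑ φ' ∈ cls par (F.induce ({w}ᶜ : Set W)) H {x | x.1 ∈ R},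
                ∑ z : V, Psi par a Wt φ' * Wt z := hstep
          _ = (∑ φ' ∈ cls par (F.induce ({w}ᶜ : Set W)) H {x | x.1 ∈ R}, Psi par a Wt φ') *
                ∑ z, Wt z := by
              rw [Finset.sum_mul]
              apply Finset.sum_congr rfl
              intro φ' _
              rw [Finset.mul_sum]
          _ ≤ ((1 / a) ^ F.edgeSet.ncard * (∑ v, Wt v) ^ (m - F.edgeSet.ncard)) * ∑ z, Wt z :=
              mul_le_mul_of_nonneg_right (hS' _) hB
          _ = (1 / a) ^ F.edgeSet.ncard * (∑ v, Wt v) ^ (m + 1 - F.edgeSet.ncard) := by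
              rw [mul_assoc, ← pow_succ]
              congr 2
              omega
      · intro φ _ ψ _ h
        exact res_inj w φ ψ (congrArg Prod.fst h) (congrArg Prod.snd h)
      · intro φ hφ
        rw [mem_cls] at hφ
        refine ⟨?_, Finset.mem_univ _⟩
        rw [mem_cls]
        intro x
        rw [up_res w φ (fun x₁ y₁ _ hadj _ => ?_) x]
        · exact hφ x.1
        · intro hyw
          rw [hyw] at hadj
          exact hw x₁ hadj.symm
      · intro φ' _ z _
        exact mul_nonneg (Psi_nonneg ha.le hW0 φ') (hW0 z)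
      · intro φ _
        show Psi par a Wt φ ≤ Psi par a Wt (res w φ) * Wt (φ w)
        rw [Psi_split par a Wt w φ, avail_isolated φ w hw, mul_comm]
        have hP : ∏ x : ({w}ᶜ : Set W), Gs a Wt (avail par φ x.1) = Psi par a Wt (res w φ) := by
          unfold Psi
          apply Finset.prod_congr rfl
          intro x _
          rw [avail_res w φ x (fun h => hw x.1 h.symm)]
        rw [hP]
        exact mul_le_mul_of_nonneg_left (hsup (φ w)) (Psi_nonneg ha.le hW0 _)
    · push Not at hiso
      have hW' : Nonempty W := by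
        rw [← Fintype.card_pos_iff]; omega
      obtain ⟨w0⟩ := hW'
      obtain ⟨w1, hw1⟩ := hiso w0
      have hepos : 1 ≤ F.edgeSet.ncard := by
        rw [Nat.one_le_iff_ne_zero, Ne, Set.ncard_eq_zero (Set.toFinite _)]
        intro h0
        have hmem : s(w0, w1) ∈ F.edgeSet := hw1
        rw [h0] at hmem
        exact hmem
      have key : ∀ (w u : W), F.Adj w u → (∀ x, F.Adj w x → x = u) →
          F.edgeSet.ncard ≤ m + 1 ∧ ∀ R : Set W, w ∉ R →
          ∑ φ ∈ cls par F H R, Psi par a Wt φ ≤
            (1 / a) ^ F.edgeSet.ncard * (∑ v, Wt v) ^ (m + 1 - F.edgeSet.ncard) := by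
        intro w u hwu hleaf
        have hcard : Fintype.card (({w}ᶜ : Set W)) = m := by
          rw [Fintype.card_compl_set]
          simp [hW]
        obtain ⟨he', hS'⟩ := ih _ (F.induce ({w}ᶜ : Set W)) hcard (hF.induce _)
        have hdeg : F.degree w = 1 := by
          rw [degree_eq_one_iff_existsUnique_adj]
          exact ⟨u, hwu, fun y hy => hleaf y hy⟩
        have he := ncard_edgeSet_induce_compl_singleton' F w
        rw [hdeg] at he
        rw [he] at he' hS'
        refine ⟨by omega, fun R hwR => ?_⟩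
        set u' : ({w}ᶜ : Set W) := ⟨u, hwu.ne'⟩ with hu'
        have hparw : ∀ φ ∈ cls par F H R, par (φ w) = some (φ u) := by
          intro φ hφ
          rw [mem_cls] at hφ
          have hup : up par φ w := by
            by_contra hnot
            exact hwR ((hφ w).2 hnot)
          obtain ⟨y, hy, hpar⟩ := hup
          rw [hleaf y hy] at hpar
          exact hpar
        have hG1 : ∀ s : Finset V, 0 ≤ Gs a Wt s :=
          fun s => le_trans zero_le_one (one_le_Gs ha.le hW0 s)
        have hstep := sum_le_sum_inj (cls par F H R)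
          (cls par (F.induce ({w}ᶜ : Set W)) H {x | x.1 ∈ R})
          (fun φ' => avail par φ' u') (fun φ => (res w φ, φ w)) ?_ ?_
          (fun φ => Psi par a Wt φ)
          (fun φ' z => (∏ x ∈ (univ : Finset ({w}ᶜ : Set W)).erase u',
              Gs a Wt (avail par φ' x)) * (Wt z * Gs a Wt ((avail par φ' u').erase z))) ?_ ?_
        · calc ∑ φ ∈ cls par F H R, Psi par a Wt φ
              ≤ ∑ φ' ∈ cls par (F.induce ({w}ᶜ : Set W)) H {x | x.1 ∈ R},
                  ∑ z ∈ avail par φ' u', (∏ x ∈ (univ : Finset ({w}ᶜ : Set W)).erase u',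
                    Gs a Wt (avail par φ' x)) *
                      (Wt z * Gs a Wt ((avail par φ' u').erase z)) := hstep
            _ ≤ ∑ φ' ∈ cls par (F.induce ({w}ᶜ : Set W)) H {x | x.1 ∈ R},
                  (1 / a) * Psi par a Wt φ' := by
                apply Finset.sum_le_sum
                intro φ' _
                rw [← Finset.mul_sum]
                have hG := Gs_step a Wt (avail par φ' u')
                have h1 : ∑ z ∈ avail par φ' u', Wt z * Gs a Wt ((avail par φ' u').erase z) ≤
                    (1 / a) * Gs a Wt (avail par φ' u') := by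
                  rw [one_div, ← div_eq_inv_mul, le_div_iff₀ ha, Finset.sum_mul]
                  refine le_trans (le_of_eq ?_) hG
                  apply Finset.sum_congr rfl
                  intro z _
                  ring
                have hrest : 0 ≤ ∏ x ∈ (univ : Finset ({w}ᶜ : Set W)).erase u',
                    Gs a Wt (avail par φ' x) :=
                  Finset.prod_nonneg (fun x _ => hG1 _)
                calc (∏ x ∈ (univ : Finset ({w}ᶜ : Set W)).erase u', Gs a Wt (avail par φ' x)) *
                      ∑ z ∈ avail par φ' u', Wt z * Gs a Wt ((avail par φ' u').erase z)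
                    ≤ (∏ x ∈ (univ : Finset ({w}ᶜ : Set W)).erase u',
                        Gs a Wt (avail par φ' x)) * ((1 / a) * Gs a Wt (avail par φ' u')) :=
                      mul_le_mul_of_nonneg_left h1 hrest
                  _ = (1 / a) * Psi par a Wt φ' := by
                      unfold Psi
                      rw [← Finset.mul_prod_erase univ _ (Finset.mem_univ u')]
                      ring
            _ = (1 / a) * ∑ φ' ∈ cls par (F.induce ({w}ᶜ : Set W)) H {x | x.1 ∈ R},
                  Psi par a Wt φ' := by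
                rw [Finset.mul_sum]
            _ ≤ (1 / a) * ((1 / a) ^ (F.edgeSet.ncard - 1) *
                  (∑ v, Wt v) ^ (m - (F.edgeSet.ncard - 1))) :=
                mul_le_mul_of_nonneg_left (hS' _) (by positivity)
            _ = (1 / a) ^ F.edgeSet.ncard * (∑ v, Wt v) ^ (m + 1 - F.edgeSet.ncard) := by
                rw [← mul_assoc, ← pow_succ']
                congr 2 <;> omega
        · intro φ _ ψ _ h
          exact res_inj w φ ψ (congrArg Prod.fst h) (congrArg Prod.snd h)
        · intro φ hφ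
          have hpw := hparw φ hφ
          rw [mem_cls] at hφ
          refine ⟨?_, mem_avail_leaf w u hwu φ hpw⟩
          rw [mem_cls]
          intro x
          rw [up_res w φ (fun x₁ y₁ _ hadj hpar => ?_) x]
          · exact hφ x.1
          · intro hyw
            rw [hyw] at hadj hpar
            have hxu : x₁ = u := hleaf x₁ hadj.symm
            rw [hxu] at hpar
            have e1 := hd _ _ hpar
            have e2 := hd _ _ hpw
            omega
        · intro φ' _ z _
          exact mul_nonneg (Finset.prod_nonneg (fun x _ => hG1 _)) (mul_nonneg (hW0 z) (hG1 _))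
        · intro φ hφ
          have hpw := hparw φ hφ
          show Psi par a Wt φ ≤
            (∏ x ∈ (univ : Finset ({w}ᶜ : Set W)).erase u', Gs a Wt (avail par (res w φ) x)) *
              (Wt (φ w) * Gs a Wt ((avail par (res w φ) u').erase (φ w)))
          rw [Psi_split par a Wt w φ,
            ← Finset.mul_prod_erase univ (fun x : ({w}ᶜ : Set W) => Gs a Wt (avail par φ x.1))
              (Finset.mem_univ u')]
          have h1 : Gs a Wt (avail par φ w) ≤ Wt (φ w) :=
            le_trans (Gs_mono ha.le hW0 (avail_subset φ w)) (hsup (φ w))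
          have h2 : Gs a Wt (avail par φ u'.1) =
              Gs a Wt ((avail par (res w φ) u').erase (φ w)) := by
            rw [← avail_leaf w u hwu φ]
          have h3 : ∏ x ∈ (univ : Finset ({w}ᶜ : Set W)).erase u', Gs a Wt (avail par φ x.1) =
              ∏ x ∈ (univ : Finset ({w}ᶜ : Set W)).erase u',
                Gs a Wt (avail par (res w φ) x) := by
            apply Finset.prod_congr rfl
            intro x hx
            rw [avail_res w φ x ?_]
            intro hadj
            have hxu : x.1 = u := hleaf x.1 hadj.symm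
            exact (Finset.ne_of_mem_erase hx) (Subtype.ext hxu)
          rw [h2, h3]
          have hrest : 0 ≤ ∏ x ∈ (univ : Finset ({w}ᶜ : Set W)).erase u',
              Gs a Wt (avail par (res w φ) x) :=
            Finset.prod_nonneg (fun x _ => hG1 _)
          have hGe : 0 ≤ Gs a Wt ((avail par (res w φ) u').erase (φ w)) := hG1 _
          have h4 := mul_le_mul_of_nonneg_right h1 (mul_nonneg hGe hrest)
          linarith
      obtain ⟨v, u, hvu, hleaf⟩ := exists_leaf_of_isAcyclic'' hF ⟨w0, w1, hw1⟩
      refine ⟨(key v u hvu hleaf).1, fun R => ?_⟩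
      by_cases hne : (cls par F H R).Nonempty
      · obtain ⟨φ0, hφ0⟩ := hne
        rw [mem_cls] at hφ0
        have hex : ∃ x, up par φ0 x := by
          have hadjH : H.Adj (φ0 w0) (φ0 w1) := φ0.toHom.map_adj hw1
          rcases (hH _ _).1 hadjH with h | h
          · exact ⟨w0, w1, hw1, h⟩
          · exact ⟨w1, w0, hw1.symm, h⟩
        obtain ⟨w, hwmem, hwmax⟩ := Finset.exists_max_image
          (univ.filter (fun x => up par φ0 x)) (fun x => d (φ0 x))
          (by obtain ⟨x, hx⟩ := hex; exact ⟨x, by simp [hx]⟩)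
        rw [Finset.mem_filter] at hwmem
        obtain ⟨u, hwu, hpar⟩ := hwmem.2
        have hleafw : ∀ x, F.Adj w x → x = u := by
          intro x hx
          have hadjH : H.Adj (φ0 w) (φ0 x) := φ0.toHom.map_adj hx
          rcases (hH _ _).1 hadjH with h | h
          · rw [hpar] at h
            exact φ0.injective (Option.some.inj h).symm
          · exfalso
            have hupx : up par φ0 x := ⟨w, hx.symm, h⟩
            have h1 := hwmax x (by simp [hupx])
            have h2 := hd _ _ h
            omega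
        have hwR : w ∉ R := fun h => ((hφ0 w).1 h) hwmem.2
        exact (key w u hwu hleafw).2 R hwR
      · rw [Finset.not_nonempty_iff_eq_empty] at hne
        rw [hne, Finset.sum_empty]
        positivity

end Main

theorem card_copy_le_of_supersolution {V : Type*} [Fintype V] [DecidableEq V]
    (H : SimpleGraph V) (par : V → Option V) (d : V → ℕ)
    (hd : ∀ u v, par u = some v → d u = d v + 1)
    (hH : ∀ u v, H.Adj u v ↔ (par u = some v ∨ par v = some u))
    (a : ℝ) (ha : 0 < a) (Wt : V → ℝ) (hW0 : ∀ v, 0 ≤ Wt v)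
    (hsup : ∀ v, ∑ A ∈ (Finset.univ.filter (fun u => par u = some v)).powerset,
        (A.card.factorial : ℝ) * a ^ A.card * ∏ u ∈ A, Wt u ≤ Wt v)
    (W : Type) [Fintype W] (F : SimpleGraph W) (hF : F.IsAcyclic) :
    ∃ c, c + F.edgeSet.ncard = Fintype.card W ∧
      (Nat.card (SimpleGraph.Copy F H) : ℝ) ≤
        2 ^ Fintype.card W * (1 / a) ^ F.edgeSet.ncard * (∑ v, Wt v) ^ c := by
  classical
  obtain ⟨he, hS⟩ := class_sum_le H par d hd hH a ha Wt hW0 hsup (Fintype.card W) W F rfl hF
  refine ⟨Fintype.card W - F.edgeSet.ncard, by omega, ?_⟩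
  rw [← card_copies F H]
  have h1 : ((copies F H).card : ℝ) ≤ ∑ φ ∈ copies F H, Psi par a Wt φ := by
    rw [Finset.card_eq_sum_ones, Nat.cast_sum]
    apply Finset.sum_le_sum
    intro φ _
    simp only [Nat.cast_one]
    unfold Psi
    exact Finset.one_le_prod (fun x _ => one_le_Gs ha.le hW0 _)
  have h2 : ∑ φ ∈ copies F H, Psi par a Wt φ = ∑ R ∈ (univ : Finset W).powerset,
      ∑ φ ∈ (copies F H).filter (fun φ => univ.filter (fun x => ¬ up par φ x) = R),
        Psi par a Wt φ := by
    rw [Finset.sum_fiberwise_of_maps_to]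
    intro φ _
    simp
  have h3 : ∀ R ∈ (univ : Finset W).powerset,
      ∑ φ ∈ (copies F H).filter (fun φ => univ.filter (fun x => ¬ up par φ x) = R),
        Psi par a Wt φ ≤
      (1 / a) ^ F.edgeSet.ncard * (∑ v, Wt v) ^ (Fintype.card W - F.edgeSet.ncard) := by
    intro R _
    refine le_trans ?_ (hS (R : Set W))
    apply Finset.sum_le_sum_of_subset_of_nonneg
    · intro φ hφ
      rw [Finset.mem_filter] at hφ
      rw [mem_cls]
      intro x
      rw [Finset.mem_coe, ← hφ.2]
      simp
    · intro φ _ _
      exact Psi_nonneg ha.le hW0 φ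
  calc ((copies F H).card : ℝ) ≤ ∑ φ ∈ copies F H, Psi par a Wt φ := h1
    _ = ∑ R ∈ (univ : Finset W).powerset,
          ∑ φ ∈ (copies F H).filter (fun φ => univ.filter (fun x => ¬ up par φ x) = R),
            Psi par a Wt φ := h2
    _ ≤ ∑ R ∈ (univ : Finset W).powerset,
          (1 / a) ^ F.edgeSet.ncard * (∑ v, Wt v) ^ (Fintype.card W - F.edgeSet.ncard) :=
        Finset.sum_le_sum h3
    _ = 2 ^ Fintype.card W * (1 / a) ^ F.edgeSet.ncard *
          (∑ v, Wt v) ^ (Fintype.card W - F.edgeSet.ncard) := by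
        rw [Finset.sum_const, Finset.card_powerset, Finset.card_univ, nsmul_eq_mul]
        push_cast
        ring

end Vale.Agent.Lib.P064
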